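import Vale.Agent.P070.ZFC.Base.Pull

/-!
# P070, base node: the levels

`level k` is the commutant of the tail matrix units at level `k`. A positive element of a
level which is not small is compressed to a multiple of the identity by an isometry of the
next level.
-/

open scoped ENNReal InnerProductSpace

namespace Vale.Agent.P070.ZFC.Base

noncomputable section

/-- The tail matrix units at level `k`. -/
def units (k : ℕ) : Set BSeq := Set.range fun p : ℕ × ℕ => unit k p.1 p.2

/-- The operators acting on the head only. -/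
def level (k : ℕ) : StarSubalgebra ℂ BSeq := StarSubalgebra.centralizer ℂ (units k)

lemma mem_level {k : ℕ} {T : BSeq} :
    T ∈ level k ↔ ∀ s' s, unit k s' s * T = T * unit k s' s := by
  rw [level, StarSubalgebra.mem_centralizer_iff]
  constructor
  · exact fun h s' s => (h _ ⟨(s', s), rfl⟩).1
  · rintro h _ ⟨⟨s', s⟩, rfl⟩
    exact ⟨h s' s, by dsimp only; rw [star_unit]; exact h s s'⟩

lemma isClosed_level (k : ℕ) : IsClosed (level k : Set BSeq) := Set.isClosed_centralizer _

variable {k : ℕ} {T : BSeq}

/-- The matrix of a level operator is diagonal and constant in the tail. -/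
lemma level_apply (hT : T ∈ level k) (a r a₁ r₁ : ℕ) :
    T (delta (mk k a r)) (mk k a₁ r₁) =
      if r₁ = r then T (delta (mk k a 0)) (mk k a₁ 0) else 0 := by
  have h : ∀ s' s x, unit k s' s (T x) = T (unit k s' s x) := fun s' s x => by
    have := DFunLike.congr_fun (mem_level.1 hT s' s) x
    simpa using this
  split_ifs with hr
  · subst hr
    have h1 := congrArg (fun v : Seq => v (mk k a₁ r₁)) (h r₁ 0 (delta (mk k a 0)))
    simp only [unit_apply, e_mk, unit_delta, if_pos] at h1
    exact h1.symm
  · have h1 := congrArg (fun v : Seq => v (mk k a₁ r₁)) (h r r (delta (mk k a r)))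
    simp only [unit_apply, e_mk, unit_delta, if_pos, if_neg hr] at h1
    exact h1.symm

lemma level_succ_le (k : ℕ) : level k ≤ level (k + 1) := by
  intro T hT
  rw [mem_level]
  intro s' s
  refine ext_delta fun i => ?_
  obtain ⟨a, r, rfl⟩ : ∃ a r, mk k a r = i := ⟨_, _, mk_e k i⟩
  obtain ⟨b, t, rfl⟩ : ∃ b t, Nat.pair b t = r := ⟨_, _, Nat.pair_unpair r⟩
  ext j
  obtain ⟨a₁, r₁, rfl⟩ : ∃ a₁ r₁, mk k a₁ r₁ = j := ⟨_, _, mk_e k j⟩
  obtain ⟨b₁, t₁, rfl⟩ : ∃ b₁ t₁, Nat.pair b₁ t₁ = r₁ := ⟨_, _, Nat.pair_unpair r₁⟩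
  simp only [mul_apply_eq_comp]
  rw [← mk_succ k a₁ b₁ t₁, ← mk_succ k a b t, unit_apply, e_mk, unit_delta]
  simp only [mk_succ]
  rw [level_apply hT, apply_ite T, map_zero]
  by_cases ht : t = s
  · subst ht
    simp only [if_true]
    rw [level_apply hT a (Nat.pair b s')]
    by_cases hs : t₁ = s' <;> by_cases hb : b₁ = b <;> simp [hs, hb]
  · simp only [if_neg ht]
    by_cases hs : t₁ = s' <;> simp [hs, Ne.symm ht]

lemma level_mono : Monotone level := monotone_nat_of_le_succ level_succ_le

/-- The isometry of the next level onto the head `a`. -/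
def shiftMap (k a j : ℕ) : Option ℕ :=
  if (e k j).1 = a then some ((e (k + 1)).symm (Nat.unpair (e k j).2)) else none

lemma inj_shiftMap (k a : ℕ) : Inj (shiftMap k a) := by
  intro j j' i hj hj'
  unfold shiftMap at hj hj'
  split_ifs at hj with h1
  split_ifs at hj' with h2
  have h3 := (e (k + 1)).symm.injective
    ((Option.some.inj hj).trans (Option.some.inj hj').symm)
  refine (e k).injective (Prod.ext (h1.trans h2.symm) ?_)
  rw [← Nat.pair_unpair (e k j).2, h3, Nat.pair_unpair]

/-- The isometry of the next level onto the head `a`. -/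
def shift (k a : ℕ) : BSeq := pull (shiftMap k a)

lemma shift_apply (k a : ℕ) (x : Seq) (j : ℕ) :
    shift k a x j = if (e k j).1 = a then x ((e (k + 1)).symm (Nat.unpair (e k j).2)) else 0 := by
  rw [shift, pull_apply (inj_shiftMap k a), shiftMap]
  split_ifs <;> simp

lemma shift_delta (k a p s : ℕ) :
    shift k a (delta (mk (k + 1) p s)) = delta (mk k a (Nat.pair p s)) := by
  ext j
  rw [shift_apply]
  have hj := mk_e k j
  split_ifs with h1
  · have h2 : (e (k + 1)).symm (Nat.unpair (e k j).2) =
        mk (k + 1) (Nat.unpair (e k j).2).1 (Nat.unpair (e k j).2).2 := rfl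
    rw [delta_apply, delta_apply, h2]
    refine if_congr ⟨fun h => ?_, fun h => ?_⟩ rfl rfl
    · have h3 := congrArg (e (k + 1)) h
      simp only [e_mk, Prod.mk.injEq] at h3
      rw [← hj, h1, ← h3.1, ← h3.2, Nat.pair_unpair]
    · rw [h, e_mk, Nat.unpair_pair]
  · rw [delta_apply, if_neg]
    rintro rfl
    simp [e_mk] at h1

lemma shift_mem (k a : ℕ) : shift k a ∈ level (k + 1) := by
  rw [mem_level]
  intro s' s
  refine ext_delta fun i => ?_
  obtain ⟨p, t, rfl⟩ : ∃ p t, mk (k + 1) p t = i := ⟨_, _, mk_e _ i⟩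
  simp only [mul_apply_eq_comp]
  rw [shift_delta, unit_delta, apply_ite (shift k a), map_zero, shift_delta]
  rw [← mk_succ, unit_delta, mk_succ]

/-- The compression of a level operator to a head is a scalar. -/
lemma star_shift_mul (hT : T ∈ level k) (a : ℕ) :
    star (shift k a) * T * shift k a = T (delta (mk k a 0)) (mk k a 0) • (1 : BSeq) := by
  refine ext_delta fun i => ?_
  obtain ⟨p, s, rfl⟩ : ∃ p s, mk (k + 1) p s = i := ⟨_, _, mk_e _ i⟩
  ext j
  obtain ⟨q, t, rfl⟩ : ∃ q t, mk (k + 1) q t = j := ⟨_, _, mk_e _ j⟩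
  simp only [mul_apply_eq_comp, shift_delta]
  rw [← inner_delta (mk (k + 1) q t), ContinuousLinearMap.star_eq_adjoint,
    ContinuousLinearMap.adjoint_inner_right, shift_delta, inner_delta, level_apply hT]
  have hiff : Nat.pair q t = Nat.pair p s ↔ mk (k + 1) q t = mk (k + 1) p s := by
    rw [Nat.pair_eq_pair]
    constructor
    · rintro ⟨rfl, rfl⟩; rfl
    · intro h
      simpa [e_mk] using congrArg (e (k + 1)) h
  simp only [smul_apply, one_apply_eq_self, lp.coeFn_smul,
    Pi.smul_apply, delta_apply, smul_eq_mul, hiff]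
  split_ifs <;> simp

lemma star_shift_self (k a : ℕ) : star (shift k a) * shift k a = 1 := by
  have h := star_shift_mul (one_mem (level k)) a
  simpa [delta_apply] using h

lemma shift_not_unitary (k : ℕ) : shift k 0 * star (shift k 0) ≠ 1 := by
  intro h
  have h1 := congrArg (fun S : BSeq => S (delta (mk k 1 0)) (mk k 1 0)) h
  simp only [mul_apply_eq_comp, shift_apply, e_mk, one_apply_eq_self,
    delta_apply] at h1
  simp at h1

/-- A nonzero level operator is compressed to a positive scalar by the next level. -/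
theorem exists_scalar {f : BSeq} (hf : f ∈ level k) (hf0 : f ≠ 0) :
    ∃ W ∈ level (k + 1), ∃ c : ℝ, 0 < c ∧ star W * (star f * f) * W = (c : ℂ) • 1 := by
  obtain ⟨i, hi⟩ : ∃ i, f (delta i) ≠ 0 := by
    by_contra hc
    push Not at hc
    exact hf0 (ext_delta fun i => by simp [hc i])
  refine ⟨shift k (e k i).1, shift_mem k _, ‖f (delta i)‖ ^ 2, by positivity, ?_⟩
  rw [star_shift_mul (mul_mem (star_mem hf) hf)]
  have h1 := level_apply (mul_mem (star_mem hf) hf) (e k i).1 (e k i).2 (e k i).1 (e k i).2
  rw [if_pos rfl, mk_e] at h1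
  rw [← h1, ← inner_delta i, mul_apply_eq_comp, ContinuousLinearMap.star_eq_adjoint,
    ContinuousLinearMap.adjoint_inner_right, inner_self_eq_norm_sq_to_K]
  simp

end

end Vale.Agent.P070.ZFC.Base
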