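import Mathlib

/-!
# P070, base node: separable purely infinite subalgebras

In a C*-algebra with an increasing sequence of subalgebras, such that every nonzero element of
one is compressed to a scalar by the next one, every positive element of the closed union is
compressed to the identity, and countably many compressions give a separable subalgebra with
the same property.
-/

open scoped ComplexStarModule
open TopologicalSpace

namespace Vale.Agent.P070.ZFC.Base

noncomputable section

variable {A : Type*} [CStarAlgebra A] [PartialOrder A] [StarOrderedRing A]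

/-- Every nonzero element of a member of the chain is compressed to a scalar by the next one. -/
def Compresses (L : ℕ → StarSubalgebra ℂ A) : Prop :=
  ∀ k, ∀ f ∈ L k, f ≠ 0 → ∃ W ∈ L (k + 1), ∃ c : ℝ, 0 < c ∧
    star W * (star f * f) * W = (c : ℂ) • 1

/-- Every positive nonzero element of `S` is compressed to the identity inside `S`. -/
def CompressesPositive (S : StarSubalgebra ℂ A) : Prop :=
  ∀ b ∈ S, 0 ≤ b → b ≠ 0 → ∃ x ∈ S, star x * b * x = 1

omit [PartialOrder A] [StarOrderedRing A] in
lemma cfc_mem_of_closed {S : StarSubalgebra ℂ A} (hS : IsClosed (S : Set A)) {a : A} (ha : a ∈ S)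
    (hsa : IsSelfAdjoint a) (f : ℝ → ℝ) : cfc f a ∈ S := by
  rw [cfc_real_eq_complex f hsa]
  exact StarAlgebra.elemental.le_of_mem hS ha (cfc_mem_elemental (𝕜 := ℂ) _ _)

omit [PartialOrder A] [StarOrderedRing A] in
lemma conj_algebraMap {y : A} (hy : star y * y = 1) (r : ℝ) :
    star y * algebraMap ℝ A r * y = algebraMap ℝ A r := by
  rw [Algebra.algebraMap_eq_smul_one, mul_smul_comm, mul_one, smul_mul_assoc, hy]

/-- In a closed algebra, an element bounded below is compressed to the identity. -/
lemma exists_normalize {S : StarSubalgebra ℂ A} (hS : IsClosed (S : Set A)) {z : A}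
    (hz : z ∈ S) {c : ℝ} (hc : 0 < c) (hzc : algebraMap ℝ A c ≤ z) :
    ∃ w ∈ S, star w * z * w = 1 := by
  have hsa : IsSelfAdjoint z := IsSelfAdjoint.of_nonneg ((algebraMap_nonneg A hc.le).trans hzc)
  have hspec : ∀ x ∈ spectrum ℝ z, c ≤ x := (algebraMap_le_iff_le_spectrum (ha := hsa)).1 hzc
  have hcont : ContinuousOn (fun s => (Real.sqrt s)⁻¹) (spectrum ℝ z) :=
    Real.continuous_sqrt.continuousOn.inv₀ fun x hx =>
      (Real.sqrt_pos.2 (hc.trans_le (hspec x hx))).ne'
  refine ⟨cfc (fun s => (Real.sqrt s)⁻¹) z, cfc_mem_of_closed hS hz hsa _, ?_⟩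
  rw [(cfc_predicate (R := ℝ) (fun s => (Real.sqrt s)⁻¹) z : IsSelfAdjoint _).star_eq]
  conv_lhs => arg 1; arg 2; rw [← cfc_id' ℝ z hsa]
  rw [← cfc_mul _ (fun s => s) z hcont (by fun_prop),
    ← cfc_mul (fun x => (Real.sqrt x)⁻¹ * x) (fun s => (Real.sqrt s)⁻¹) z
      (hcont.mul (by fun_prop)) hcont]
  conv_rhs => rw [← cfc_const_one ℝ z hsa]
  refine cfc_congr fun x hx => ?_
  have hx0 := hc.trans_le (hspec x hx)
  have := (Real.sqrt_pos.2 hx0).ne'
  field_simp
  exact (Real.sq_sqrt hx0.le).symm

variable {L : ℕ → StarSubalgebra ℂ A}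

/-- A member of the chain with spectrum above `t` is compressed above `t` by an isometry. -/
theorem exists_compression (hcl : ∀ k, IsClosed (L k : Set A)) (hm : Monotone L)
    (hL : Compresses L) {k : ℕ} {b : A} (hb : b ∈ L k) (hsa : IsSelfAdjoint b) {t x : ℝ}
    (hx : x ∈ spectrum ℝ b) (htx : t < x) :
    ∃ y ∈ L (k + 1), star y * y = 1 ∧ algebraMap ℝ A t ≤ star y * b * y := by
  set f : A := cfc (fun s => max (s - t) 0) b with hf
  have hf0 : f ≠ 0 := fun h => by
    have h1 : Set.EqOn (fun s => max (s - t) 0) 0 (spectrum ℝ b) :=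
      eqOn_of_cfc_eq_cfc (a := b) (by rw [← hf, h, cfc_zero]) (by fun_prop) (by fun_prop) hsa
    have := h1 hx
    simp at this
    linarith
  have hfl : f ∈ L k := cfc_mem_of_closed (hcl k) hb hsa _
  have hfsa : star f = f := (cfc_predicate (R := ℝ) _ b : IsSelfAdjoint f).star_eq
  obtain ⟨W, hW, c, hc, hWc⟩ := hL k f hfl hf0
  set C : ℂ := ((Real.sqrt c)⁻¹ : ℂ) with hC
  have hy : star (f * (C • W)) * (f * (C • W)) = 1 := by
    rw [star_mul, star_smul, show star C • star W * star f * (f * (C • W)) =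
        star C • star W * (star f * f) * (C • W) by noncomm_ring,
      smul_mul_assoc, mul_smul_comm, smul_mul_assoc, hWc, smul_smul, smul_smul]
    convert one_smul ℂ (1 : A) using 2
    have h0 : (Real.sqrt c : ℂ) ≠ 0 := by exact_mod_cast (Real.sqrt_pos.2 hc).ne'
    simp only [hC, star_inv₀, RCLike.star_def, Complex.conj_ofReal]
    field_simp
    exact_mod_cast (Real.sq_sqrt hc.le).symm
  refine ⟨f * (C • W), mul_mem (hm k.le_succ hfl) (Subalgebra.smul_mem _ hW _), hy, ?_⟩
  have hpos : (0 : A) ≤ star f * (b - algebraMap ℝ A t) * f := by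
    rw [hfsa, hf, show b - algebraMap ℝ A t = cfc (fun s => s - t) b by
      rw [cfc_sub (fun s => s) (fun _ => t) b, cfc_id' ℝ b hsa, cfc_const t b hsa],
      ← cfc_mul .., ← cfc_mul ..]
    refine cfc_nonneg fun s _ => ?_
    rcases le_total (s - t) 0 with h | h
    · simp [max_eq_right h]
    · positivity
  rw [← sub_nonneg]
  refine (star_left_conjugate_nonneg hpos (C • W)).trans_eq ?_
  generalize C • W = V at hy ⊢
  calc star V * (star f * (b - algebraMap ℝ A t) * f) * V
      = star (f * V) * b * (f * V) - star (f * V) * algebraMap ℝ A t * (f * V) := by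
        rw [star_mul]; noncomm_ring
    _ = star (f * V) * b * (f * V) - algebraMap ℝ A t := by rw [conj_algebraMap hy]

/-- The closed union of the chain. -/
def union (L : ℕ → StarSubalgebra ℂ A) : StarSubalgebra ℂ A := (⨆ k, L k).topologicalClosure

omit [PartialOrder A] [StarOrderedRing A] in
lemma le_union (k : ℕ) : L k ≤ union L :=
  (le_iSup L k).trans (StarSubalgebra.le_topologicalClosure _)

/-- A positive element of the union is compressed above a quarter of its norm. -/
lemma exists_compression_union (hcl : ∀ k, IsClosed (L k : Set A)) (hm : Monotone L)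
    (hL : Compresses L) {b : A} (hb : b ∈ union L) (hb0 : 0 ≤ b) :
    ∃ y ∈ union L, star y * y = 1 ∧ algebraMap ℝ A (‖b‖ / 4) ≤ star y * b * y := by
  rcases eq_or_ne b 0 with rfl | hne
  · exact ⟨1, one_mem _, by simp, by simp⟩
  set β : ℝ := ‖b‖ with hβ
  have hβ0 : 0 < β := norm_pos_iff.2 hne
  obtain ⟨k, T, hT, hbT⟩ : ∃ k, ∃ T ∈ L k, ‖b - T‖ < β / 8 := by
    have h : b ∈ closure (⋃ k, (L k : Set A)) := by
      rw [← StarSubalgebra.coe_iSup_of_directed hm.directed_le,
        ← StarSubalgebra.topologicalClosure_coe]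
      exact hb
    obtain ⟨T, hT, hd⟩ := Metric.mem_closure_iff.1 h (β / 8) (by positivity)
    obtain ⟨k, hk⟩ := Set.mem_iUnion.1 hT
    exact ⟨k, T, hk, by rwa [dist_eq_norm] at hd⟩
  set T' : A := (ℜ T : A) with hT'
  have hT'l : T' ∈ L k := by
    rw [hT', realPart_apply_coe, ← Complex.coe_smul]
    exact SMulMemClass.smul_mem _ (add_mem (s := L k) hT (star_mem hT))
  have hsa : IsSelfAdjoint T' := (ℜ T).2
  have hbsa : IsSelfAdjoint b := IsSelfAdjoint.of_nonneg hb0
  have hd : ‖b - T'‖ ≤ β / 8 := by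
    have h1 : b - T' = (ℜ (b - T) : A) := by
      rw [map_sub, AddSubgroupClass.coe_sub, hbsa.coe_realPart]
    rw [h1]
    exact (realPart.norm_le _).trans hbT.le
  have hdsa : IsSelfAdjoint (b - T') := hbsa.sub hsa
  have hhi : b - T' ≤ algebraMap ℝ A (β / 8) :=
    hdsa.le_algebraMap_norm_self.trans (algebraMap_mono A hd)
  have hlo : algebraMap ℝ A (-(β / 8)) ≤ b - T' := by
    rw [map_neg]
    exact (neg_le_neg (algebraMap_mono A hd)).trans hdsa.neg_algebraMap_norm_le_self
  obtain ⟨x, hx, htx⟩ : ∃ x ∈ spectrum ℝ T', β / 2 < x := by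
    by_contra hc
    push Not at hc
    have h2 : b ≤ algebraMap ℝ A (β / 2 + β / 8) := by
      calc b = T' + (b - T') := by abel
        _ ≤ algebraMap ℝ A (β / 2) + algebraMap ℝ A (β / 8) :=
            add_le_add ((le_algebraMap_iff_spectrum_le (ha := hsa)).2 hc) hhi
        _ = _ := (map_add _ _ _).symm
    have := (CStarAlgebra.norm_le_iff_le_algebraMap b (by positivity) hb0).2 h2
    linarith
  obtain ⟨y, hy, hy1, hyb⟩ := exists_compression hcl hm hL hT'l hsa hx htx
  refine ⟨y, le_union _ hy, hy1, ?_⟩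
  have h2 := star_left_conjugate_le_conjugate hlo y
  rw [conj_algebraMap hy1] at h2
  calc algebraMap ℝ A (β / 4)
      ≤ algebraMap ℝ A (β / 2 + -(β / 8)) := algebraMap_mono A (by linarith)
    _ = algebraMap ℝ A (β / 2) + algebraMap ℝ A (-(β / 8)) := map_add _ _ _
    _ ≤ star y * T' * y + star y * (b - T') * y := add_le_add hyb h2
    _ = star y * b * y := by noncomm_ring

omit [PartialOrder A] [StarOrderedRing A] in
lemma isSeparable_adjoin {s : Set A} (hs : s.Countable) :
    IsSeparable (StarAlgebra.adjoin ℂ s : Set A) := by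
  have h : (StarAlgebra.adjoin ℂ s).toSubalgebra.toSubmodule =
      Submodule.span ℂ (Submonoid.closure (s ∪ star s) : Set A) := by
    rw [StarAlgebra.adjoin_toSubalgebra, Algebra.adjoin_eq_span]
  have hcnt : (Submonoid.closure (s ∪ star s) : Set A).Countable := by
    have : Countable ↥(s ∪ star s) :=
      (hs.union (by rw [← Set.image_star]; exact hs.image _)).to_subtype
    refine (Set.countable_range (fun l : List ↥(s ∪ star s) => (l.map (↑)).prod)).mono ?_
    intro x hx
    obtain ⟨l, hl, hl'⟩ := Submonoid.exists_list_of_mem_closure hx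
    lift l to List ↥(s ∪ star s) using hl
    exact ⟨l, hl'⟩
  have := hcnt.isSeparable.span (R := ℂ)
  rw [← h] at this
  exact this

/-- A separable closed subalgebra through `s₀` which compresses its positive elements to `1`. -/
theorem exists_separable_compressesPositive (hcl : ∀ k, IsClosed (L k : Set A)) (hm : Monotone L)
    (hL : Compresses L) {s₀ : A} (hs₀ : s₀ ∈ union L) :
    ∃ S : StarSubalgebra ℂ A, IsClosed (S : Set A) ∧ IsSeparable (S : Set A) ∧ s₀ ∈ S ∧
      CompressesPositive S := by
  classical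
  have hcomp : ∀ d : A, ∃ y ∈ union L, d ∈ union L → star y * y = 1 ∧
      algebraMap ℝ A (‖star d * d‖ / 4) ≤ star y * (star d * d) * y := by
    intro d
    by_cases hd : d ∈ union L
    · obtain ⟨y, hy, h⟩ := exists_compression_union hcl hm hL (mul_mem (star_mem hd) hd)
        (star_mul_self_nonneg d)
      exact ⟨y, hy, fun _ => h⟩
    · exact ⟨1, one_mem _, fun h => absurd h hd⟩
  choose comp hcompU hcompY using hcomp
  have hseed : ∀ s : {s : Set A // s.Countable}, ∃ D : Set A, D.Countable ∧
      D ⊆ (StarAlgebra.adjoin ℂ s.1 : Set A) ∧ (StarAlgebra.adjoin ℂ s.1 : Set A) ⊆ closure D :=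
    fun s => let ⟨D, h1, h2, h3⟩ := (isSeparable_adjoin s.2).exists_countable_dense_subset
      ⟨D, h2, h1, h3⟩
  choose seed hseedC hseedS hseedD using hseed
  let gens : ℕ → {s : Set A // s.Countable} := fun n => Nat.rec
    ⟨{s₀}, Set.countable_singleton _⟩
    (fun _ s => ⟨s.1 ∪ comp '' seed s, s.2.union ((hseedC s).image _)⟩) n
  have hgm : Monotone fun n => (gens n).1 := monotone_nat_of_le_succ fun n => Set.subset_union_left
  have hgU : ∀ n, (gens n).1 ⊆ (union L : Set A) := by
    intro n
    induction n with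
    | zero => exact Set.singleton_subset_iff.2 hs₀
    | succ n ih =>
      rintro x (hx | ⟨d, -, rfl⟩)
      · exact ih hx
      · exact hcompU d
  refine ⟨(StarAlgebra.adjoin ℂ (⋃ n, (gens n).1)).topologicalClosure,
    StarSubalgebra.isClosed_topologicalClosure _, ?_, ?_, ?_⟩
  · rw [StarSubalgebra.topologicalClosure_coe]
    exact (isSeparable_adjoin (Set.countable_iUnion fun n => (gens n).2)).closure
  · exact StarSubalgebra.le_topologicalClosure _
      (StarAlgebra.subset_adjoin ℂ _ (Set.mem_iUnion.2 ⟨0, rfl⟩))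
  set S := (StarAlgebra.adjoin ℂ (⋃ n, (gens n).1)).topologicalClosure with hS
  have hSc : IsClosed (S : Set A) := StarSubalgebra.isClosed_topologicalClosure _
  intro b hb hb0 hne
  set β : ℝ := ‖b‖ with hβ
  have hβ0 : 0 < β := norm_pos_iff.2 hne
  have hbsa := IsSelfAdjoint.of_nonneg hb0
  obtain ⟨c, hc, hcb⟩ : ∃ c ∈ S, star c * c = b := by
    refine ⟨cfc Real.sqrt b, cfc_mem_of_closed hSc hb hbsa _, ?_⟩
    rw [(cfc_predicate (R := ℝ) Real.sqrt b : IsSelfAdjoint _).star_eq,
      ← cfc_mul _ _ b Real.continuous_sqrt.continuousOn Real.continuous_sqrt.continuousOn]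
    conv_rhs => rw [← cfc_id' ℝ b hbsa]
    exact cfc_congr fun x hx => Real.mul_self_sqrt (spectrum_nonneg_of_nonneg hb0 hx)
  have hnorm : ∀ᶠ d in nhds c, ‖star d * d - b‖ < β / 16 := by
    have : Continuous fun d : A => ‖star d * d - b‖ := by fun_prop
    exact (this.tendsto c).eventually (gt_mem_nhds (by rw [hcb]; simpa using (by positivity)))
  have hclo : c ∈ closure (⋃ n, seed (gens n)) := by
    have hdir : Directed (· ≤ ·) fun n => StarAlgebra.adjoin ℂ (gens n).1 :=
      Monotone.directed_le fun m n hmn => StarAlgebra.adjoin_mono (hgm hmn)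
    have h2 : StarAlgebra.adjoin ℂ (⋃ n, (gens n).1) ≤ ⨆ n, StarAlgebra.adjoin ℂ (gens n).1 :=
      StarAlgebra.adjoin_le <| Set.iUnion_subset fun n =>
        (StarAlgebra.subset_adjoin ℂ (gens n).1).trans
          (SetLike.coe_subset_coe.2 (le_iSup (fun n => StarAlgebra.adjoin ℂ (gens n).1) n))
    have h1 : (StarAlgebra.adjoin ℂ (⋃ n, (gens n).1) : Set A) ⊆
        closure (⋃ n, seed (gens n)) := by
      refine (SetLike.coe_subset_coe.2 h2).trans ?_
      rw [StarSubalgebra.coe_iSup_of_directed hdir]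
      exact Set.iUnion_subset fun n => (hseedD _).trans
        (closure_mono (Set.subset_iUnion (fun n => seed (gens n)) n))
    rw [hS, ← SetLike.mem_coe, StarSubalgebra.topologicalClosure_coe] at hc
    exact closure_minimal h1 isClosed_closure hc
  obtain ⟨d, hd, hdn⟩ := mem_closure_iff_nhds.1 hclo _ hnorm
  obtain ⟨n, hdn⟩ := Set.mem_iUnion.1 hdn
  obtain ⟨hy1, hy2⟩ := hcompY d ((StarAlgebra.adjoin_le (hgU n)) (hseedS _ hdn))
  set y := comp d
  have hyS : y ∈ S := StarSubalgebra.le_topologicalClosure _ <|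
    StarAlgebra.subset_adjoin ℂ _ <| Set.mem_iUnion.2 ⟨n + 1, Or.inr ⟨d, hdn, rfl⟩⟩
  have hesa : IsSelfAdjoint (b - star d * d) := hbsa.sub (IsSelfAdjoint.star_mul_self d)
  have hen : ‖b - star d * d‖ ≤ β / 16 := by rw [norm_sub_rev]; exact hd.le
  have hlo : algebraMap ℝ A (-(β / 16)) ≤ b - star d * d := by
    rw [map_neg]
    exact (neg_le_neg (algebraMap_mono A hen)).trans hesa.neg_algebraMap_norm_le_self
  have h2 := star_left_conjugate_le_conjugate hlo y
  rw [conj_algebraMap hy1] at h2
  have hdn' : β / 2 ≤ ‖star d * d‖ := by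
    have := norm_le_norm_add_norm_sub' b (star d * d)
    linarith
  have hz : algebraMap ℝ A (β / 16) ≤ star y * b * y := by
    calc algebraMap ℝ A (β / 16)
        ≤ algebraMap ℝ A (β / 8 + -(β / 16)) := algebraMap_mono A (by linarith)
      _ = algebraMap ℝ A (β / 8) + algebraMap ℝ A (-(β / 16)) := map_add _ _ _
      _ ≤ star y * (star d * d) * y + star y * (b - star d * d) * y :=
          add_le_add ((algebraMap_mono A (by linarith)).trans hy2) h2
      _ = star y * b * y := by noncomm_ring
  obtain ⟨w, hw, hw1⟩ := exists_normalize hSc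
    (mul_mem (mul_mem (star_mem hyS) hb) hyS) (by positivity) hz
  refine ⟨y * w, mul_mem hyS hw, ?_⟩
  rw [← hw1, star_mul]
  noncomm_ring

end

end Vale.Agent.P070.ZFC.Base
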