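import Vale.Agent.P070.Rep
import Vale.Agent.P070.ZFC.States
import Vale.Agent.P070.ZFC.Base.Levels
import Vale.Agent.P070.ZFC.Base.Pure

/-!
# P070, base node: a separable purely infinite algebra acting irreducibly
-/

open TopologicalSpace
open scoped InnerProductSpace

namespace Vale.Agent.P070.ZFC.Base

noncomputable section

/-- A separable, infinite dimensional, purely infinite closed algebra of operators, with a
non-unitary isometry. -/
lemma exists_separable_algebra : ∃ S : StarSubalgebra ℂ BSeq, IsClosed (S : Set BSeq) ∧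
    IsSeparable (S : Set BSeq) ∧ shift 0 0 ∈ S ∧
    ∀ b ∈ S, b ≠ 0 → ∃ x ∈ S, star (b * x) * (b * x) = 1 := by
  let _ := CStarAlgebra.spectralOrder BSeq
  have := CStarAlgebra.spectralOrderedRing BSeq
  have hL : Compresses level := fun k f hf hf0 => exists_scalar hf hf0
  obtain ⟨S, hc, hsep, h0, hS⟩ := exists_separable_compressesPositive isClosed_level level_mono hL
    (le_union 1 (shift_mem 0 0))
  refine ⟨S, hc, hsep, h0, fun b hb hb0 => ?_⟩
  obtain ⟨x, hx, h1⟩ := hS (star b * b) (mul_mem (star_mem hb) hb) (star_mul_self_nonneg b)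
    ((CStarRing.star_mul_self_eq_zero_iff b).not.2 hb0)
  exact ⟨x, hx, by rw [← h1, star_mul]; noncomm_ring⟩

universe u in
/-- A nontrivial unital C*-algebra has an irreducible representation. -/
lemma exists_irrep_of_nontrivial (A : Type u) [CStarAlgebra A] [Nontrivial A] :
    ∃ (H : Type u) (_ : NormedAddCommGroup H) (_ : InnerProductSpace ℂ H) (_ : CompleteSpace H)
      (π : A →⋆ₙₐ[ℂ] (H →L[ℂ] H)) (ξ : H), IsIrreducibleRep π ∧ ξ ≠ 0 ∧
      DenseRange (fun a => π a ξ) ∧ π 1 = 1 := by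
  let _ := CStarAlgebra.spectralOrder A
  have := CStarAlgebra.spectralOrderedRing A
  obtain ⟨f₀, hf₀, hf₀1⟩ := exists_state_pos (A := A) zero_le_one one_ne_zero
  obtain ⟨K, _, _, _, π, ξ₀, hirr, -, -, hξ, hd⟩ := exists_irrep (A := A) (ι := PEmpty.{1})
    (fun i => i.elim) (fun i => i.elim) (fun i => i.elim) 1 hf₀.mem_qstates (fun i => i.elim)
    hf₀1
  refine ⟨K, inferInstance, inferInstance, inferInstance, π, ξ₀, hirr,
    fun h => by simp [h] at hξ, hd, ?_⟩
  have hM := hirr.2 (LinearMap.eqLocus (π 1 : K →L[ℂ] K).toLinearMap LinearMap.id)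
    (isClosed_eq (π 1).continuous continuous_id) fun a x _ => by
      show π 1 (π a x) = π a x
      rw [← rep_mul, one_mul]
  obtain ⟨a, ha⟩ := hirr.1
  rcases hM with hM | hM
  · refine absurd (ContinuousLinearMap.ext fun x => ?_) ha
    have hx : π a x ∈ LinearMap.eqLocus (π 1 : K →L[ℂ] K).toLinearMap LinearMap.id := by
      show π 1 (π a x) = π a x
      rw [← rep_mul, one_mul]
    rw [hM, Submodule.mem_bot] at hx
    simpa using hx
  · refine ContinuousLinearMap.ext fun x => ?_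
    have hx : x ∈ LinearMap.eqLocus (π 1 : K →L[ℂ] K).toLinearMap LinearMap.id :=
      hM ▸ Submodule.mem_top
    simpa using hx

/-- The base of the construction. -/
theorem exists_base : ∃ (K : Type) (_ : NormedAddCommGroup K) (_ : InnerProductSpace ℂ K)
    (_ : CompleteSpace K) (A : StarSubalgebra ℂ (K →L[ℂ] K)) (ξ : K),
    IsClosed (A : Set (K →L[ℂ] K)) ∧ IsSeparable (A : Set (K →L[ℂ] K)) ∧
    (Nontrivial A ∧ ∀ b : A, b ≠ 0 → ∃ x : A, star (b * x) * (b * x) = 1) ∧
    ¬ FiniteDimensional ℂ A ∧ ‖ξ‖ = 1 ∧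
    (∀ M : Submodule ℂ K, IsClosed (M : Set K) →
      (∀ a ∈ A, ∀ x ∈ M, a x ∈ M) → M = ⊥ ∨ M = ⊤) ∧
    DenseRange (fun a : A => (a : K →L[ℂ] K) ξ) := by
  obtain ⟨S, hcl, hsep, h0, hS⟩ := exists_separable_algebra
  let _ : CStarAlgebra S := StarSubalgebra.cstarAlgebra S (h_closed := hcl)
  have hntB : Nontrivial BSeq := ⟨⟨1, 0, fun h => shift_not_unitary 0 (by
    rw [← mul_one (shift 0 0 * star (shift 0 0)), h, mul_zero])⟩⟩
  have hnt : Nontrivial S := ⟨⟨1, 0, fun h => one_ne_zero (congrArg Subtype.val h : (1 : BSeq) = 0)⟩⟩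
  obtain ⟨K, _, _, _, π, ξ₀, hirr, hξ0, hd, hone⟩ := exists_irrep_of_nontrivial S
  let ρ : S →⋆ₐ[ℂ] (K →L[ℂ] K) :=
    { toFun := π
      map_one' := hone
      map_mul' := map_mul π
      map_zero' := map_zero π
      map_add' := map_add π
      commutes' := fun r => by
        rw [Algebra.algebraMap_eq_smul_one, Algebra.algebraMap_eq_smul_one, map_smul, hone]
      map_star' := map_star π }
  have hinj : Function.Injective ρ := by
    refine (injective_iff_map_eq_zero ρ).2 fun b hb => by_contra fun hb0 => ?_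
    obtain ⟨x, hx, h1⟩ := hS b b.2 fun h => hb0 (Subtype.ext h)
    have h2 : star (b * ⟨x, hx⟩) * (b * ⟨x, hx⟩) = (1 : S) := Subtype.ext h1
    have h3 := congrArg ρ h2
    rw [map_mul, map_star, map_mul, hb, zero_mul, star_zero, zero_mul, map_one] at h3
    exact hξ0 (by simpa using (DFunLike.congr_fun h3 ξ₀).symm)
  have hiso : Isometry ρ := NonUnitalStarAlgHom.isometry ρ hinj
  have hS0 : (ρ.range : Set (K →L[ℂ] K)) = Set.range ρ := rfl
  have hξn : ‖ξ₀‖ ≠ 0 := norm_ne_zero_iff.2 hξ0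
  let ξ : K := ((‖ξ₀‖ : ℂ)⁻¹) • ξ₀
  refine ⟨K, inferInstance, inferInstance, inferInstance, ρ.range, ξ, ?_, ?_, ⟨?_, ?_⟩, ?_, ?_, ?_,
    ?_⟩
  · rw [hS0]; exact hiso.isClosedEmbedding.isClosed_range
  · rw [hS0, ← Set.image_univ]
    have : SeparableSpace S := hsep.separableSpace
    exact (IsSeparable.of_separableSpace _).image hiso.continuous
  · exact ⟨⟨⟨ρ 1, ⟨1, rfl⟩⟩, ⟨ρ 0, ⟨0, rfl⟩⟩, fun h =>
      one_ne_zero (hinj (congrArg Subtype.val h))⟩⟩
  · rintro ⟨_, b, rfl⟩ hb0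
    obtain ⟨x, hx, h1⟩ := hS b b.2 fun h => hb0 (Subtype.ext (by
      show ρ b = 0
      rw [show b = 0 from Subtype.ext h, map_zero]))
    refine ⟨⟨ρ ⟨x, hx⟩, ⟨_, rfl⟩⟩, Subtype.ext ?_⟩
    show star (ρ b * ρ ⟨x, hx⟩) * (ρ b * ρ ⟨x, hx⟩) = 1
    rw [← map_mul, ← map_star, ← map_mul, show star (b * ⟨x, hx⟩) * (b * ⟨x, hx⟩) = (1 : S) from
      Subtype.ext h1, map_one]
  · intro hfin
    let e : S →ₗ[ℂ] ρ.range :=
      { toFun := fun b => ⟨ρ b, ⟨b, rfl⟩⟩
        map_add' := fun a b => Subtype.ext (map_add ρ a b)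
        map_smul' := fun r a => Subtype.ext (map_smul ρ r a) }
    have : FiniteDimensional ℂ S :=
      FiniteDimensional.of_injective e fun a b h => hinj (congrArg Subtype.val h)
    let s : S := ⟨shift 0 0, h0⟩
    have h1 : star s * s = 1 := Subtype.ext (star_shift_self 0 0)
    have hsinj : Function.Injective (LinearMap.mulLeft ℂ s) := fun u v huv => by
      have := congrArg (fun w => star s * w) huv
      simpa [LinearMap.mulLeft_apply, ← mul_assoc, h1] using this
    obtain ⟨u, hu⟩ := (LinearMap.injective_iff_surjective.1 hsinj) 1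
    have hsu : s * u = 1 := hu
    have h2 : star s = u := by
      rw [← mul_one (star s), ← hsu, ← mul_assoc, h1, one_mul]
    rw [← h2] at hsu
    exact shift_not_unitary 0 (congrArg Subtype.val hsu)
  · rw [norm_smul, norm_inv, Complex.norm_real, norm_norm, inv_mul_cancel₀ hξn]
  · intro M hM hMi
    exact hirr.2 M hM fun a x hx => hMi (ρ a) ⟨a, rfl⟩ x hx
  · have hξ0' : ξ ≠ 0 := smul_ne_zero (inv_ne_zero (by exact_mod_cast hξn)) hξ0
    let _ := CStarAlgebra.spectralOrder S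
    have := CStarAlgebra.spectralOrderedRing S
    refine (orbit_dense hirr hξ0').mono ?_
    rintro _ ⟨a, rfl⟩
    exact ⟨⟨ρ a, ⟨a, rfl⟩⟩, rfl⟩

end

end Vale.Agent.P070.ZFC.Base
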