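import Mathlib

/-!
# P070, base node: coordinate operators on `ℓ²(ℕ)`

`pull h` pulls a vector back along a option-valued injection `h`. The decompositions
`e k : ℕ ≃ ℕ × ℕ` split an index into a head and a tail; the level `k` algebra consists
of the operators which act on the head only.
-/

open scoped ENNReal InnerProductSpace

namespace Vale.Agent.P070.ZFC.Base

noncomputable section

/-- The Hilbert space of the base construction. -/
abbrev Seq : Type := lp (fun _ : ℕ => ℂ) 2

/-- The operators on it. -/
abbrev BSeq : Type := Seq →L[ℂ] Seq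

/-- The unit vectors. -/
def delta (i : ℕ) : Seq := lp.single 2 i (1 : ℂ)

lemma delta_apply (i j : ℕ) : delta i j = if j = i then 1 else 0 := by
  by_cases h : j = i
  · subst h; simp [delta]
  · simp [delta, h]

lemma inner_delta (i : ℕ) (x : Seq) : ⟪delta i, x⟫_ℂ = x i := by
  rw [delta, lp.inner_single_left]; simp

lemma ext_delta {S T : BSeq} (h : ∀ i, S (delta i) = T (delta i)) : S = T := by
  ext1 x
  have hx := lp.hasSum_single ENNReal.ofNat_ne_top x
  have hsingle : ∀ i, lp.single 2 i (x i) = x i • delta i := fun i => by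
    rw [delta, ← lp.single_smul]; simp
  refine (hx.mapL S).unique ?_
  convert hx.mapL T using 2 with i
  rw [hsingle, map_smul, map_smul, h]

/-- A option-valued injection of indices. -/
def Inj (h : ℕ → Option ℕ) : Prop := ∀ ⦃j j' i⦄, h j = some i → h j' = some i → j = j'

/-- The coordinates of the pulled back vector. -/
def pullFun (h : ℕ → Option ℕ) (x : Seq) (j : ℕ) : ℂ := (h j).elim 0 fun i => x i

lemma sum_pullFun_le {h : ℕ → Option ℕ} (hh : Inj h) (x : Seq) (s : Finset ℕ) :
    ∑ j ∈ s, ‖pullFun h x j‖ ^ (2 : ℝ≥0∞).toReal ≤ ‖x‖ ^ (2 : ℝ≥0∞).toReal := by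
  classical
  set t := s.filter fun j => (h j).isSome with ht
  have h1 : ∑ j ∈ t, ‖pullFun h x j‖ ^ (2 : ℝ≥0∞).toReal =
      ∑ j ∈ s, ‖pullFun h x j‖ ^ (2 : ℝ≥0∞).toReal := by
    refine Finset.sum_filter_of_ne fun j _ hne => ?_
    cases hj : h j with
    | none => simp [pullFun, hj] at hne
    | some i => simp
  rw [← h1]
  have hinj : Set.InjOn (fun j => (h j).getD 0) t := by
    intro j hj j' hj' he
    simp only [ht, Finset.coe_filter, Set.mem_ofPred_eq, Option.isSome_iff_exists] at hj hj'
    obtain ⟨i, hi⟩ := hj.2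
    obtain ⟨i', hi'⟩ := hj'.2
    simp only [hi, hi', Option.getD_some] at he
    exact hh hi (he ▸ hi')
  calc ∑ j ∈ t, ‖pullFun h x j‖ ^ (2 : ℝ≥0∞).toReal
      = ∑ i ∈ t.image (fun j => (h j).getD 0), ‖x i‖ ^ (2 : ℝ≥0∞).toReal := by
        rw [Finset.sum_image hinj]
        refine Finset.sum_congr rfl fun j hj => ?_
        obtain ⟨i, hi⟩ := Option.isSome_iff_exists.1 (Finset.mem_filter.1 hj).2
        simp [pullFun, hi]
    _ ≤ ‖x‖ ^ (2 : ℝ≥0∞).toReal := lp.sum_rpow_le_norm_rpow (by norm_num) x _

open scoped Classical in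
/-- The pull back along a option-valued injection, `0` if `h` is not injective. -/
def pull (h : ℕ → Option ℕ) : BSeq :=
  if hh : Inj h then
    LinearMap.mkContinuous
      { toFun := fun x => ⟨pullFun h x, memℓp_gen' (sum_pullFun_le hh x)⟩
        map_add' := fun x y => by
          ext j
          simp only [lp.coeFn_add, Pi.add_apply]
          cases hj : h j <;> simp [pullFun, hj]
        map_smul' := fun c x => by
          ext j
          simp only [lp.coeFn_smul, Pi.smul_apply, RingHom.id_apply]
          cases hj : h j <;> simp [pullFun, hj] } 1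
      (fun x => by
        rw [one_mul]
        exact lp.norm_le_of_forall_sum_le (by norm_num) (norm_nonneg _) (sum_pullFun_le hh x))
  else 0

lemma pull_apply {h : ℕ → Option ℕ} (hh : Inj h) (x : Seq) (j : ℕ) :
    pull h x j = (h j).elim 0 fun i => x i := by
  rw [pull, dif_pos hh]; rfl

lemma pull_adjoint {h h' : ℕ → Option ℕ} (hh : Inj h) (hh' : Inj h')
    (hr : ∀ i j, h j = some i ↔ h' i = some j) : star (pull h) = pull h' := by
  refine ext_delta fun j => ?_
  ext i
  rw [← inner_delta i, ContinuousLinearMap.star_eq_adjoint,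
    ContinuousLinearMap.adjoint_inner_right, ← inner_conj_symm, inner_delta, pull_apply hh,
    pull_apply hh']
  cases hj : h j with
  | none =>
    cases hi : h' i with
    | none => simp
    | some j' =>
      have : j' ≠ j := fun e => by
        have := (hr i j).2 (e ▸ hi)
        simp [hj] at this
      simp [delta_apply, this]
  | some i' =>
    cases hi : h' i with
    | none =>
      have : i' ≠ i := fun e => by
        have := (hr i j).1 (e ▸ hj)
        simp [hi] at this
      simp [delta_apply, this]
    | some j' =>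
      have : i' = i ↔ j' = j := by
        constructor
        · rintro rfl
          have := (hr i' j).1 hj
          simpa [hi] using this
        · rintro rfl
          have := (hr i j').2 hi
          simpa [hj] using this
      simp only [Option.elim_some, delta_apply, this]
      split_ifs <;> simp

/-- The decomposition of an index into a head and a tail at level `k`. -/
def e : ℕ → ℕ ≃ ℕ × ℕ
  | 0 => Nat.pairEquiv.symm
  | k + 1 => (e k).trans ((Equiv.prodCongr (Equiv.refl ℕ) Nat.pairEquiv.symm).trans
      ((Equiv.prodAssoc ℕ ℕ ℕ).symm.trans (Equiv.prodCongr Nat.pairEquiv (Equiv.refl ℕ))))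

/-- The index with head `a` and tail `r` at level `k`. -/
def mk (k a r : ℕ) : ℕ := (e k).symm (a, r)

lemma e_mk (k a r : ℕ) : e k (mk k a r) = (a, r) := Equiv.apply_symm_apply _ _

lemma mk_e (k i : ℕ) : mk k (e k i).1 (e k i).2 = i := Equiv.symm_apply_apply _ _

lemma e_succ (k i : ℕ) : e (k + 1) i =
    (Nat.pair (e k i).1 (Nat.unpair (e k i).2).1, (Nat.unpair (e k i).2).2) := by
  rfl

lemma mk_succ (k a b s : ℕ) : mk (k + 1) (Nat.pair a b) s = mk k a (Nat.pair b s) := by
  apply (e (k + 1)).injective
  rw [e_mk, e_succ, e_mk, Nat.unpair_pair]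

lemma mk_succ' (k p s : ℕ) :
    mk (k + 1) p s = mk k (Nat.unpair p).1 (Nat.pair (Nat.unpair p).2 s) := by
  conv_lhs => rw [← Nat.pair_unpair p]
  rw [mk_succ]

/-- The option-valued injection of the tail matrix unit. -/
def unitMap (k s' s j : ℕ) : Option ℕ :=
  if (e k j).2 = s' then some (mk k (e k j).1 s) else none

lemma inj_unitMap (k s' s : ℕ) : Inj (unitMap k s' s) := by
  intro j j' i hj hj'
  unfold unitMap at hj hj'
  split_ifs at hj with h1
  split_ifs at hj' with h2
  have h3 := congrArg (e k) ((Option.some.inj hj).trans (Option.some.inj hj').symm)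
  rw [e_mk, e_mk, Prod.mk.injEq] at h3
  exact (e k).injective (Prod.ext h3.1 (h1.trans h2.symm))

/-- The matrix unit taking the tail `s` to the tail `s'`. -/
def unit (k s' s : ℕ) : BSeq := pull (unitMap k s' s)

lemma unit_apply (k s' s : ℕ) (x : Seq) (j : ℕ) :
    unit k s' s x j = if (e k j).2 = s' then x (mk k (e k j).1 s) else 0 := by
  rw [unit, pull_apply (inj_unitMap k s' s), unitMap]
  split_ifs <;> simp

lemma star_unit (k s' s : ℕ) : star (unit k s' s) = unit k s s' := by
  refine pull_adjoint (inj_unitMap _ _ _) (inj_unitMap _ _ _) fun i j => ?_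
  constructor <;> intro h <;> unfold unitMap at h ⊢ <;> split_ifs at h with h1 <;>
    cases Option.some.inj h <;> simp [e_mk, ← h1, mk_e]

lemma unit_delta (k s' s a r : ℕ) :
    unit k s' s (delta (mk k a r)) = if r = s then delta (mk k a s') else 0 := by
  ext j
  have hj := mk_e k j
  rw [unit_apply]
  split_ifs with h1 h2 h2 <;> simp only [delta_apply, lp.coeFn_zero, Pi.zero_apply]
  all_goals grind [e_mk]

end

end Vale.Agent.P070.ZFC.Base
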